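import Vale.Agent.Results.P302.A00Gap37585Over28674

/-!
# P302: an instance with `OPT - LP ≥ 37585/28674`, stated without auxiliary definitions

Same instance as in `A00Gap37585Over28674`, but the statement is written out with Mathlib notions
only: every packing of the 205 items into bins of capacity `1` uses at least `70` bins, and an
explicit feasible solution of the Gilmore-Gomory configuration LP has value `1969595/28674`.
-/

namespace Vale.Agent.Results.P302.A00Gap37585Inline

open Vale.Agent.Lib.P302 Vale.Agent.Results.P302.A00Gap37585Over28674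

/-- There is a list `I` of 205 rational sizes in `(0,1]` such that
* every assignment `f` of the items to `k` bins in which every bin has total size at most `1`
  has `k ≥ 70` (so `OPT(I) ≥ 70`), and
* there is a finitely supported nonnegative weighting `z` of configurations (vectors `c` of natural
  multiplicities on sizes of `I` with `∑ σ c_σ ≤ 1`) that covers every size `σ` of `I` at least
  `n_σ = I.count σ` times and has total weight `1969595/28674` (so `LP(I) ≤ 1969595/28674`). -/
theorem result : ∃ I : List ℚ, (∀ a ∈ I, 0 < a ∧ a ≤ 1) ∧ I.length = 205 ∧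
    (∀ (k : ℕ) (f : Fin I.length → Fin k),
      (∀ b : Fin k, (∑ i : Fin I.length, if f i = b then I.get i else 0) ≤ 1) → 70 ≤ k) ∧
    (∃ z : (ℚ →₀ ℕ) →₀ ℝ, (∀ c, 0 ≤ z c) ∧
      (∀ c ∈ z.support, (∀ σ ∈ c.support, σ ∈ I) ∧ c.sum (fun σ m => σ * (m : ℚ)) ≤ 1) ∧
      (∀ σ ∈ I, (I.count σ : ℝ) ≤ z.sum (fun c w => (c σ : ℝ) * w)) ∧
      z.sum (fun _ w => w) = 1969595 / 28674) ∧
    (70 : ℝ) - 1969595 / 28674 = 37585 / 28674 := by
  have hL : 0 < LL := by norm_num [LL]
  refine ⟨sizes LL items, ?_, ?_, ?_, ⟨sol LL 57348 cert, sol_nonneg LL 57348 cert, ?_, ?_, ?_⟩, ?_⟩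
  · intro a ha
    rw [sizes, List.mem_map] at ha
    obtain ⟨l, hl, rfl⟩ := ha
    have h1 : ∀ l ∈ items, 0 < l ∧ l ≤ LL := by decide +kernel
    have hLL : (0 : ℚ) < (LL : ℚ) := by exact_mod_cast hL
    constructor
    · exact div_pos (by exact_mod_cast (h1 l hl).1) hLL
    · rw [div_le_one hLL]
      exact_mod_cast (h1 l hl).2
  · have : items.length = 205 := by decide +kernel
    simp [sizes, this]
  · intro k f hf
    have h : OPT (sizes LL items) ≤ k := Nat.sInf_le ⟨f, hf⟩
    exact le_trans opt_ge h
  · exact sol_support hL 57348 items cert (by decide +kernel)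
  · intro σ hσ
    rw [sizes, List.mem_map] at hσ
    obtain ⟨l, hl, rfl⟩ := hσ
    have h2 : ∀ l ∈ items, 57348 * items.count l ≤
        (cert.map (fun p => p.1.count l * p.2)).sum := by decide +kernel
    rw [sol_cover hL, sizes, List.count_map_of_injective items _ (div_inj hL) l,
      le_div_iff₀ (by norm_num)]
    have h3 : ((57348 * items.count l : ℕ) : ℝ) ≤
        ((cert.map (fun p => p.1.count l * p.2)).sum : ℕ) := by
      exact_mod_cast h2 l hl
    rw [Nat.cast_mul] at h3
    push_cast at h3 ⊢
    linarith
  · rw [sol_sum]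
    have e : (cert.map (fun p => p.2)).sum = 3939190 := by decide +kernel
    rw [e]
    norm_num
  · norm_num

end Vale.Agent.Results.P302.A00Gap37585Inline
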