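import Vale.Agent.Lib.P302.Best37585

namespace Vale.Agent.Results.P302.A00Best37585Inline

open Vale.Agent.Lib.P302 Vale.Agent.Lib.P302.Best37585

/-- A bin packing instance with 205 items: every packing needs at least 70 bins, 70 bins suffice,
the configuration LP has a feasible solution of value `1969595/28674`, and every feasible solution
has value more than `68`.  So `OPT = 70`, `68 < LP ≤ 1969595/28674` and
`OPT - LP ≥ 37585/28674 > 13/10`.  Only Mathlib notions occur in the statement. -/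
theorem result : ∃ I : List ℚ, (∀ a ∈ I, 0 < a ∧ a ≤ 1) ∧ I.length = 205 ∧
    (∀ (k : ℕ) (f : Fin I.length → Fin k),
      (∀ b : Fin k, (∑ i : Fin I.length, if f i = b then I.get i else 0) ≤ 1) → 70 ≤ k) ∧
    (∃ f : Fin I.length → Fin 70,
      ∀ b : Fin 70, (∑ i : Fin I.length, if f i = b then I.get i else 0) ≤ 1) ∧
    (∃ z : (ℚ →₀ ℕ) →₀ ℝ, (∀ c, 0 ≤ z c) ∧
      (∀ c ∈ z.support, (∀ σ ∈ c.support, σ ∈ I) ∧ c.sum (fun σ m => σ * (m : ℚ)) ≤ 1) ∧
      (∀ σ ∈ I, (I.count σ : ℝ) ≤ z.sum (fun c w => (c σ : ℝ) * w)) ∧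
      z.sum (fun _ w => w) = 1969595 / 28674) ∧
    (∀ z : (ℚ →₀ ℕ) →₀ ℝ, (∀ c, 0 ≤ z c) →
      (∀ c ∈ z.support, (∀ σ ∈ c.support, σ ∈ I) ∧ c.sum (fun σ m => σ * (m : ℚ)) ≤ 1) →
      (∀ σ ∈ I, (I.count σ : ℝ) ≤ z.sum (fun c w => (c σ : ℝ) * w)) →
      68 < z.sum (fun _ w => w)) :=
  ⟨inst, inst_range, inst_length, fun k f hf => no69 k f hf, pack70,
    ⟨sol _ 57348 _, frac.1, frac.2.1, frac.2.2, frac_val⟩,
    fun z h1 h2 h3 => vol z ⟨h1, h2, h3⟩⟩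

end Vale.Agent.Results.P302.A00Best37585Inline
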