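import Vale.Agent.Lib.P302.Best37585

namespace Vale.Agent.Results.P302.A00Best37585Sharp

open Vale.Agent.Lib.P302 Vale.Agent.Lib.P302.Best37585

/-- A bin packing instance with 205 items, `OPT = 70` exactly and `68 < LP ≤ 1969595/28674`, so
that `OPT - LP ≥ 37585/28674 > 13/10` and `OPT = ⌈LP⌉ + 1`. -/
theorem result : ∃ I : List ℚ, (∀ a ∈ I, 0 < a ∧ a ≤ 1) ∧ I.length = 205 ∧ OPT I = 70 ∧
    68 < LP I ∧ LP I ≤ 1969595 / 28674 ∧ (37585 / 28674 : ℝ) ≤ (OPT I : ℝ) - LP I ∧
    (OPT I : ℤ) = ⌈LP I⌉ + 1 := by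
  have h1 : LP inst ≤ 1969595 / 28674 := by
    have := LP_le_of_sol frac
    rwa [frac_val] at this
  have h2 := lp_gt
  refine ⟨inst, inst_range, inst_length, opt_eq, h2, h1, ?_, ?_⟩
  · rw [opt_eq]
    push_cast
    linarith
  · have h3 : ⌈LP inst⌉ = 69 := by
      rw [Int.ceil_eq_iff]
      constructor
      · push_cast
        linarith
      · push_cast
        linarith
    rw [opt_eq, h3]
    norm_num

end Vale.Agent.Results.P302.A00Best37585Sharp
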