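import Vale.Agent.Lib.P302.Typed24

namespace Vale.Agent.Results.P302.A0Gap2147Over1728

open Vale.Agent.Lib.P302

/-- common denominator of the sizes: the item of length `l` has size `l / LL` -/
def LL : ℕ := 300000000

/-- the innermost 14 items -/
def ys0 : List ℕ := [
  100000500, 100000137, 100000130, 100000115, 100000108, 100000106, 100000093, 100000092,
  100000000, 100000000, 99999931, 99999802, 99999778, 99999764]

/-- layer 1: bins of the inner pairing gadget -/
def ib1 : List ℕ := [
  99800023, 99800010, 99800000, 99799980, 99799922, 99799918, 99799905]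

/-- layer 1: items of the inner pairing gadget -/
def ia1 : List ℕ := [
  100099969, 100099991, 100099994, 100099997, 100100008, 100100010, 100100032, 100100038,
  100100041, 100100042, 100100047, 100100050, 100100051, 100100073]

/-- layer 1: bins of the outer pairing gadget -/
def ob1 : List ℕ := [
  99798023, 99798010, 99798000, 99797980, 99797922, 99797918, 99797905]

/-- layer 1: items of the outer pairing gadget -/
def oa1 : List ℕ := [
  100100969, 100100991, 100100994, 100100997, 100101008, 100101010, 100101032, 100101038,
  100101041, 100101042, 100101047, 100101050, 100101051, 100101073]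

/-- layer 1: the six absorber items -/
def rr1 : List ℕ := [
  99940000, 99939900, 99799400, 100120000, 100101200, 100099399]

/-- layer 1: 48 items -/
def zs1 : List ℕ := ib1 ++ (ia1 ++ (ob1 ++ (oa1 ++ rr1)))

/-- layer 2: bins of the inner pairing gadget -/
def ib2 : List ℕ := [
  80000023, 80000010, 80000000, 79999980, 79999922, 79999918, 79999905]

/-- layer 2: items of the inner pairing gadget -/
def ia2 : List ℕ := [
  109999969, 109999991, 109999994, 109999997, 110000008, 110000010, 110000032, 110000038,
  110000041, 110000042, 110000047, 110000050, 110000051, 110000073]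

/-- layer 2: bins of the outer pairing gadget -/
def ob2 : List ℕ := [
  79998023, 79998010, 79998000, 79997980, 79997922, 79997918, 79997905]

/-- layer 2: items of the outer pairing gadget -/
def oa2 : List ℕ := [
  110000969, 110000991, 110000994, 110000997, 110001008, 110001010, 110001032, 110001038,
  110001041, 110001042, 110001047, 110001050, 110001051, 110001073]

/-- layer 2: the six absorber items -/
def rr2 : List ℕ := [
  94000000, 93990000, 79999400, 112000000, 110001200, 109999399]

/-- layer 2: 48 items -/
def zs2 : List ℕ := ib2 ++ (ia2 ++ (ob2 ++ (oa2 ++ rr2)))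

/-- the lengths of the 110 items -/
def items : List ℕ := zs2 ++ (zs1 ++ ys0)

/-- primal certificate: configurations with weights (to be divided by the denominator) -/
def cert : List (List ℕ × ℕ) := [
  ([110001010, 110001010, 79997980], 768),
  ([110001200, 109999399, 79999400], 576),
  ([100101041, 100101041, 99797918], 864),
  ([110001050, 110001032, 79997918], 864),
  ([100100050, 100100032, 99799918], 864),
  ([110001041, 110001041, 79997918], 864),
  ([100100073, 100100073, 99799400], 240),
  ([100100994, 100100994, 99798010], 864),
  ([100101050, 100101032, 99797918], 864),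
  ([100120000, 99939900, 99939900], 424),
  ([110000050, 110000032, 79999918], 864),
  ([109999997, 109999997, 80000000], 576),
  ([100120000, 100120000, 94000000], 220),
  ([100101073, 100100073, 99798023], 1248),
  ([110000051, 109999399, 80000023], 416),
  ([112000000, 94000000, 94000000], 418),
  ([110001050, 110001042, 79997905], 864),
  ([110001042, 110001032, 79997922], 864),
  ([110000038, 110000038, 79999922], 864),
  ([110000008, 109999969, 80000023], 480),
  ([110000042, 110000032, 79999922], 864),
  ([110000041, 110000041, 79999918], 864),
  ([110001200, 110000073, 79998023], 1152),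
  ([100101010, 100100969, 99798010], 288),
  ([109999997, 109999991, 80000010], 576),
  ([110000073, 110000073, 79999400], 288),
  ([110000008, 110000008, 79999980], 48),
  ([110001051, 110000969, 79997980], 960),
  ([110000050, 110000042, 79999905], 864),
  ([112000000, 100101051, 80000023], 768),
  ([110000997, 110000997, 79998000], 576),
  ([110001073, 109999399, 79999400], 736),
  ([109999994, 109999994, 80000010], 864),
  ([100101038, 100101038, 99797922], 864),
  ([100100051, 100100051, 99799400], 176),
  ([100101010, 100101010, 99797980], 720),
  ([100101008, 100101008, 99797980], 48),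
  ([100100997, 100100997, 99798000], 576),
  ([110000051, 109999969, 79999980], 960),
  ([100101073, 100099399, 99799400], 384),
  ([100101050, 100100969, 99797980], 864),
  ([100100051, 100099399, 99800023], 416),
  ([110001010, 110000969, 79998010], 192),
  ([100100047, 100100047, 99799905], 864),
  ([100100041, 100100041, 99799918], 864),
  ([100100038, 100100038, 99799922], 864),
  ([100100042, 100100032, 99799922], 864),
  ([100100010, 100100010, 99799980], 768),
  ([100099997, 100099997, 99800000], 576),
  ([100099994, 100099994, 99800010], 864),
  ([100100010, 100099969, 99800010], 192),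
  ([100100008, 100099969, 99800023], 576),
  ([100000106, 100000092, 99999802], 864),
  ([100101042, 100101032, 99797922], 864),
  ([110000997, 110000991, 79998010], 576),
  ([100000137, 100000137, 99939900], 432),
  ([100000115, 100000115, 99999764], 864),
  ([100000108, 100000108, 99999778], 864),
  ([100000093, 100000093, 99999802], 864),
  ([100101051, 100101042, 99797905], 864),
  ([100000000, 100000000, 100000000], 1152),
  ([110001073, 100101200, 80000023], 64),
  ([100101073, 100000500, 99800010], 96),
  ([100099997, 100099991, 99800010], 576),
  ([100000130, 100000106, 99999764], 864),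
  ([100100008, 100099991, 99800000], 1152),
  ([100100997, 100100991, 99798010], 576),
  ([100101200, 100000500, 99800023], 736),
  ([100000137, 99999931, 99999931], 864),
  ([100100051, 100099969, 99799980], 960),
  ([100100050, 100100042, 99799905], 864),
  ([100000500, 100000500, 99939900], 448),
  ([110001051, 94000000, 93990000], 672),
  ([100101200, 100099399, 99799400], 928),
  ([100101008, 100100969, 99798023], 480),
  ([100101051, 100100969, 99797980], 96),
  ([100000130, 100000092, 99999778], 864),
  ([112000000, 93990000, 93990000], 528),
  ([110000010, 109999969, 80000010], 288),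
  ([110000010, 110000010, 79999980], 720),
  ([110001038, 110001038, 79997922], 864),
  ([110001051, 110000051, 79998010], 96),
  ([100101047, 100101047, 99797905], 864),
  ([100120000, 99940000, 99940000], 864),
  ([110000047, 110000047, 79999905], 864),
  ([110000994, 110000994, 79998010], 864),
  ([110001008, 110000991, 79998000], 1152),
  ([110001008, 110000969, 79998023], 576),
  ([110000051, 110000051, 79999400], 128),
  ([100101008, 100100991, 99798000], 1152),
  ([110001047, 110001047, 79997905], 864),
  ([110000008, 109999991, 80000000], 1152),
  ([112000000, 112000000], 7),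
  ([110001073, 110001073], 464)]

theorem h0 : ¬ TriplePack LL (ys0 : Multiset ℕ) (3 + 1) :=
  noPack_of_search ys0 4 (by decide +kernel)

theorem gin1 : ¬ PackX LL (fun _ => 0) (prF 99999764) ((ib1 ++ ia1 : List ℕ) : Multiset ℕ) (5 + 1) :=
  noPackX_sorted LL 99999764 _ 40 _ 1 6 (by decide +kernel) (by decide +kernel)

theorem gout1 : ¬ PackX LL (fun _ => 0) (prF 99999764) ((ob1 ++ oa1 : List ℕ) : Multiset ℕ) (5 + 1) :=
  noPackX_sorted LL 99999764 _ 40 _ 1 6 (by decide +kernel) (by decide +kernel)

theorem lay1 : ¬ PackX LL (fun _ => 0) (prF 99999764)
    ((zs1 ++ List.replicate 5 99999764 : List ℕ) : Multiset ℕ) 17 := by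
  rw [zs1, List.append_assoc, List.append_assoc, List.append_assoc, List.append_assoc]
  exact reduce2 LL 99999764 99799905 99800023 100099969 100100073
    99797905 99798023 100100969 100101073 ib1 ia1 ob1 oa1
    (rr1 ++ List.replicate 5 99999764) 17 5 5 0 80
    (by decide +kernel) (by decide +kernel) (by decide +kernel) (by decide +kernel)
    (by decide +kernel) (by decide +kernel) (by decide +kernel) (by decide +kernel)
    gin1 gout1 (by decide +kernel)

theorem h1 : ¬ TriplePack LL ((zs1 ++ ys0 : List ℕ) : Multiset ℕ) (3 + 17) :=
  wrapX LL 99999764 100000500 5 zs1 (ys0) 3 17 (by norm_num)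
    (by decide +kernel) (by decide +kernel) (by decide +kernel) lay1 h0
    (by decide +kernel)

theorem gin2 : ¬ PackX LL (fun _ => 0) (prF 99797905) ((ib2 ++ ia2 : List ℕ) : Multiset ℕ) (5 + 1) :=
  noPackX_sorted LL 99797905 _ 40 _ 1 6 (by decide +kernel) (by decide +kernel)

theorem gout2 : ¬ PackX LL (fun _ => 0) (prF 99797905) ((ob2 ++ oa2 : List ℕ) : Multiset ℕ) (5 + 1) :=
  noPackX_sorted LL 99797905 _ 40 _ 1 6 (by decide +kernel) (by decide +kernel)

theorem lay2 : ¬ PackX LL (fun _ => 0) (prF 99797905)
    ((zs2 ++ List.replicate 5 99797905 : List ℕ) : Multiset ℕ) 17 := by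
  rw [zs2, List.append_assoc, List.append_assoc, List.append_assoc, List.append_assoc]
  exact reduce2 LL 99797905 79999905 80000023 109999969 110000073
    79997905 79998023 110000969 110001073 ib2 ia2 ob2 oa2
    (rr2 ++ List.replicate 5 99797905) 17 5 5 0 80
    (by decide +kernel) (by decide +kernel) (by decide +kernel) (by decide +kernel)
    (by decide +kernel) (by decide +kernel) (by decide +kernel) (by decide +kernel)
    gin2 gout2 (by decide +kernel)

theorem h2 : ¬ TriplePack LL (items : Multiset ℕ) (19 + 17) :=
  wrapX LL 99797905 100120000 5 zs2 (zs1 ++ ys0) 19 17 (by norm_num)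
    (by decide +kernel) (by decide +kernel) (by decide +kernel) lay2 h1
    (by decide +kernel)

theorem opt_ge : 38 ≤ OPT (sizes LL items) :=
  OPT_ge_of_noPack (by norm_num [LL]) items (by decide +kernel) (by decide +kernel) 35 38 h2
    (by decide +kernel)

theorem cert1 : ∀ p ∈ cert, (∀ l ∈ p.1, l ∈ items) ∧ p.1.sum ≤ LL := by decide +kernel

theorem cert2 : ∀ l ∈ items, 1728 * items.count l ≤ (cert.map (fun p => p.1.count l * p.2)).sum := by
  decide +kernel

theorem lp_le : LP (sizes LL items) ≤ 63517 / 1728 := by
  have h := LP_le_of_cert (L := LL) (by norm_num [LL]) (D := 1728) (by norm_num) items cert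
    cert1 cert2
  have e : (cert.map (fun p => p.2)).sum = 63517 := by decide +kernel
  rw [e] at h
  norm_num at h ⊢
  exact h

/-- There is a bin packing instance with 110 items, `OPT ≥ 38` and configuration LP value at most
`63517/1728`, so that `OPT - LP ≥ 2147/1728`. -/
theorem result : ∃ I : List ℚ, (∀ a ∈ I, 0 < a ∧ a ≤ 1) ∧ I.length = 110 ∧ 38 ≤ OPT I ∧
    LP I ≤ 63517 / 1728 ∧ (2147 / 1728 : ℝ) ≤ (OPT I : ℝ) - LP I := by
  refine ⟨sizes LL items, ?_, ?_, opt_ge, lp_le, ?_⟩
  · intro a ha
    rw [sizes, List.mem_map] at ha
    obtain ⟨l, hl, rfl⟩ := ha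
    have h1 : ∀ l ∈ items, 0 < l ∧ l ≤ LL := by decide +kernel
    have hLL : (0 : ℚ) < (LL : ℚ) := by norm_num [LL]
    constructor
    · exact div_pos (by exact_mod_cast (h1 l hl).1) hLL
    · rw [div_le_one hLL]
      exact_mod_cast (h1 l hl).2
  · have : items.length = 110 := by decide +kernel
    simpa [sizes] using this
  · have h1 : (38 : ℝ) ≤ (OPT (sizes LL items) : ℝ) := by exact_mod_cast opt_ge
    have h2 := lp_le
    linarith

end Vale.Agent.Results.P302.A0Gap2147Over1728
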