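import Vale.Agent.Lib.P302.Dom

namespace Vale.Agent.Results.P302.AGap100Over81

open Vale.Agent.Lib.P302

/-- common denominator of the sizes: the item of length `l` has size `l / LL` -/
def LL : ℕ := 118800

/-- the long items; next to one of them only short items fit, and at most two of these -/
def spacers : List ℕ := [88615, 88602, 88592, 88572, 88514, 88510, 88497]

/-- the middle items -/
def tops : List ℕ := [70950, 58740, 52140, 51810, 48180, 40920, 40590, 39930, 39600, 38940, 37620, 34320, 33990, 33330, 30690]

/-- the short items -/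
def smalls : List ℕ := [15180, 15177, 15155, 15154, 15151, 15146, 15145, 15142, 15136, 15114, 15112, 15101, 15098, 15095, 15073]

/-- the lengths of the 37 items -/
def items : List ℕ := spacers ++ (tops ++ smalls)

/-- the last `j` long items, the middle items and `2 * j + 3` copies of the shortest item -/
def core (j : ℕ) : List ℕ := spacers.drop (7 - j) ++ (tops ++ List.replicate (2 * j + 3) 15073)

def cert : List (List ℕ × ℕ) := [
  ([88615, 15177], 18),
  ([88602, 15180], 9),
  ([88592, 15101, 15101], 54),
  ([88572, 15114, 15114], 72),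
  ([88602, 15101, 15095], 54),
  ([88602, 15098, 15098], 81),
  ([88497, 15151, 15151], 81),
  ([70950, 39930], 17),
  ([58740, 58740], 81),
  ([52140, 33330, 33330], 81),
  ([51810, 51810, 15155], 72),
  ([88615, 15112, 15073], 54),
  ([70950, 40920], 16),
  ([40590, 40590, 37620], 81),
  ([39930, 39930, 38940], 32),
  ([39600, 39600, 39600], 54),
  ([40920, 38940, 38940], 65),
  ([88592, 15112, 15095], 108),
  ([48180, 34320, 34320], 81),
  ([48180, 33990, 33990], 54),
  ([70950, 30690, 15177], 108),
  ([40920, 39930, 37620], 81),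
  ([70950, 15180, 15180, 15180], 21),
  ([52140, 48180, 15177], 27),
  ([51810, 51810, 15177], 9),
  ([88497, 15154, 15146], 81),
  ([88514, 15142, 15142], 81),
  ([88602, 15114, 15073], 18),
  ([88510, 15145, 15145], 81),
  ([88572, 15155, 15073], 90),
  ([52140, 33990, 30690], 54),
  ([88615, 15180], 90),
  ([88510, 15154, 15136], 81),
  ([88514, 15146, 15136], 81)]

theorem c0 : ¬ BinPack LL (core 0 : Multiset ℕ) 6 :=
  not_binPack_of_pack (fuel := 60) (by decide +kernel)

theorem c1 : ¬ BinPack LL (core 1 : Multiset ℕ) 7 :=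
  not_binPack_of_packS (fuel := 60) (stopL [(6, core 0)])
    (stopL_sound (by intro p hp; rw [List.mem_singleton] at hp; subst hp; exact c0))
    (by decide +kernel)

theorem c2 : ¬ BinPack LL (core 2 : Multiset ℕ) 8 :=
  not_binPack_of_packS (fuel := 60) (stopL [(7, core 1)])
    (stopL_sound (by intro p hp; rw [List.mem_singleton] at hp; subst hp; exact c1))
    (by decide +kernel)

theorem c3 : ¬ BinPack LL (core 3 : Multiset ℕ) 9 :=
  not_binPack_of_packS (fuel := 60) (stopL [(8, core 2)])
    (stopL_sound (by intro p hp; rw [List.mem_singleton] at hp; subst hp; exact c2))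
    (by decide +kernel)

theorem c4 : ¬ BinPack LL (core 4 : Multiset ℕ) 10 :=
  not_binPack_of_packS (fuel := 60) (stopL [(9, core 3)])
    (stopL_sound (by intro p hp; rw [List.mem_singleton] at hp; subst hp; exact c3))
    (by decide +kernel)

theorem c5 : ¬ BinPack LL (core 5 : Multiset ℕ) 11 :=
  not_binPack_of_packS (fuel := 60) (stopL [(10, core 4)])
    (stopL_sound (by intro p hp; rw [List.mem_singleton] at hp; subst hp; exact c4))
    (by decide +kernel)

theorem c6 : ¬ BinPack LL (core 6 : Multiset ℕ) 12 :=
  not_binPack_of_packS (fuel := 60) (stopL [(11, core 5)])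
    (stopL_sound (by intro p hp; rw [List.mem_singleton] at hp; subst hp; exact c5))
    (by decide +kernel)

/-- the cut-off lists used in the final search -/
def cores : List (ℕ × List ℕ) := [(6, core 0), (7, core 1), (8, core 2), (9, core 3), (10, core 4), (11, core 5), (12, core 6)]

theorem cores_unpackable : ∀ p ∈ cores, ¬ BinPack LL ((p.2 : List ℕ) : Multiset ℕ) p.1 := by
  intro p hp
  simp only [cores, List.mem_cons, List.not_mem_nil, or_false] at hp
  rcases hp with rfl | rfl | rfl | rfl | rfl | rfl | rfl
  · exact c0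
  · exact c1
  · exact c2
  · exact c3
  · exact c4
  · exact c5
  · exact c6

theorem opt_ge : 14 ≤ OPT (sizes LL items) :=
  OPT_ge_of_packS (by norm_num [LL]) items (by decide +kernel) (stopL cores)
    (stopL_sound cores_unpackable) 13 60 (by decide +kernel)

theorem lp_le : LP (sizes LL items) ≤ 1034 / 81 := by
  have h := LP_le_of_cert (L := LL) (by norm_num [LL]) (D := 162) (by norm_num) items cert
    (by decide +kernel) (by decide +kernel)
  have e : (cert.map (fun p => p.2)).sum = 2068 := by decide +kernel
  rw [e] at h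
  have e2 : (((2068 : ℕ) : ℝ) / ((162 : ℕ) : ℝ)) = 1034 / 81 := by norm_num
  rw [e2] at h
  exact h

/-- There is a bin packing instance (37 items) with `OPT ≥ 14` and configuration LP value at most
`1034/81`, so that `OPT - LP ≥ 100/81`. -/
theorem result : ∃ I : List ℚ, (∀ a ∈ I, 0 < a ∧ a ≤ 1) ∧ I.length = 37 ∧ 14 ≤ OPT I ∧
    LP I ≤ 1034 / 81 ∧ (100 / 81 : ℝ) ≤ (OPT I : ℝ) - LP I := by
  refine ⟨sizes LL items, ?_, ?_, opt_ge, lp_le, ?_⟩
  · intro a ha
    rw [sizes, List.mem_map] at ha
    obtain ⟨l, hl, rfl⟩ := ha
    have h1 : ∀ l ∈ items, 0 < l ∧ l ≤ LL := by decide +kernel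
    have hLL : (0 : ℚ) < (LL : ℚ) := by norm_num [LL]
    constructor
    · exact div_pos (by exact_mod_cast (h1 l hl).1) hLL
    · rw [div_le_one hLL]
      exact_mod_cast (h1 l hl).2
  · simp [sizes, items, spacers, tops, smalls]
  · have h1 : (14 : ℝ) ≤ (OPT (sizes LL items) : ℝ) := by exact_mod_cast opt_ge
    have h2 := lp_le
    linarith

end Vale.Agent.Results.P302.AGap100Over81
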