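import Vale.Agent.Lib.P302.Cut

namespace Vale.Agent.Results.P302.AGap29Over24

open Vale.Agent.Lib.P302

/-- common denominator of the sizes: the item of length `l` has size `l / LL` -/
def LL : ℕ := 2520

/-- three long items; next to them only the short items fit -/
def spacers : List ℕ := [1942, 1938, 1936]

/-- the sixteen middle items -/
def tops : List ℕ :=
  [1267, 1260, 1113, 1113, 1092, 889, 882, 833, 819, 749, 742, 735, 714, 700, 686, 616]

/-- the seven short items -/
def smalls : List ℕ := [294, 294, 292, 291, 290, 289, 288]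

/-- the lengths of the 26 items -/
def items : List ℕ := spacers ++ (tops ++ smalls)

/-- the middle items together with two copies of the shortest item -/
def core : List ℕ := tops ++ [288, 288]

/-- shrink every short item to the shortest one -/
def shrink (x : ℕ) : ℕ := if 288 ≤ x ∧ x < 300 then 288 else x

theorem shrink_le (x : ℕ) : shrink x ≤ x := by
  unfold shrink
  split_ifs <;> omega

def cert : List (List ℕ × ℕ) := [
  ([1942, 289, 289], 12),
  ([1942, 290, 288], 12),
  ([1938, 291, 291], 12),
  ([1938, 294, 288], 12),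
  ([1936, 292, 292], 12),
  ([1936, 294, 290], 12),
  ([1267, 616, 616], 12),
  ([1260, 1260], 12),
  ([1267, 1113], 10),
  ([889, 882, 749], 10),
  ([889, 889, 742], 6),
  ([882, 882, 749], 1),
  ([833, 833, 833], 8),
  ([882, 819, 819], 12),
  ([1092, 735, 686], 11),
  ([1092, 714, 714], 8),
  ([1092, 742, 686], 5),
  ([1113, 714, 686], 8),
  ([1113, 700, 700], 12),
  ([1113, 1113, 294], 9),
  ([1267, 889, 294], 2),
  ([749, 742, 735, 294], 13)]

/-- the middle items and two shortest items do not fit into six bins -/
theorem core_unpackable : ¬ BinPack LL (core : Multiset ℕ) 6 :=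
  not_binPack_of_pack (fuel := 30) (by decide +kernel)

theorem opt_ge : 10 ≤ OPT (sizes LL items) :=
  OPT_ge_of_packS (by norm_num [LL]) items (by decide +kernel) (stopAt 6 shrink core)
    (stopAt_sound shrink_le core_unpackable) 9 30 (by decide +kernel)

theorem lp_le : LP (sizes LL items) ≤ 211 / 24 := by
  have h := LP_le_of_cert (L := LL) (by norm_num [LL]) (D := 24) (by norm_num) items cert
    (by decide +kernel) (by decide +kernel)
  have e : (cert.map (fun p => p.2)).sum = 211 := by decide +kernel
  rw [e] at h
  exact_mod_cast h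

/-- There is a bin packing instance (26 items) with `OPT ≥ 10` and configuration LP value at most
`211/24`, so that `OPT - LP ≥ 29/24 > 347/288 > 77/64 > 6/5`. -/
theorem result : ∃ I : List ℚ, (∀ a ∈ I, 0 < a ∧ a ≤ 1) ∧ I.length = 26 ∧ 10 ≤ OPT I ∧
    LP I ≤ 211 / 24 ∧ (29 / 24 : ℝ) ≤ (OPT I : ℝ) - LP I := by
  refine ⟨sizes LL items, ?_, ?_, opt_ge, lp_le, ?_⟩
  · intro a ha
    rw [sizes, List.mem_map] at ha
    obtain ⟨l, hl, rfl⟩ := ha
    have h1 : ∀ l ∈ items, 0 < l ∧ l ≤ LL := by decide +kernel
    have hLL : (0 : ℚ) < (LL : ℚ) := by norm_num [LL]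
    constructor
    · exact div_pos (by exact_mod_cast (h1 l hl).1) hLL
    · rw [div_le_one hLL]
      exact_mod_cast (h1 l hl).2
  · simp [sizes, items, spacers, tops, smalls]
  · have h1 : (10 : ℝ) ≤ (OPT (sizes LL items) : ℝ) := by exact_mod_cast opt_ge
    have h2 := lp_le
    linarith

end Vale.Agent.Results.P302.AGap29Over24
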